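import Vale.Agent.P167.H72.SD.Law
import Vale.Agent.P167.FKA.Out

/-!
# P167, general `q`, [Q-SAND]: the law level of the sandwich with a common set `C ⊆ D ∩ P`

`D`, `P` domains with the outsides `η`, `ζ`; the squares of `Z ⊆ C` are frozen in the state `T`.
In the comparison the squares of `P \ C` are open, the squares of `D \ C` are closed. Hypotheses:

* `Jo`: two even corners of squares of `C`, which are also corners of squares `y ∉ C` with `y ∈ P` or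
  `ζ y` open, are joined by squares off `D` which are open in `η`;
* for the dual connections from `X` to the arcs `WD`, `WP`: every odd corner of a square of `C` which is
  a corner of a square of `D \ C`, or is in `WD`, is in `WP`.
-/

set_option autoImplicit false

namespace Vale.Agent.P167.H632Q.Sand

open Finset Relation Vale.Agent.P167 Vale.Agent.P167.FK
open Vale.Agent.P167.FKA (Cor cor_of_step cor_pa cor_pb Ex_mono Ex_congr cf_out ind_nonneg ind_compl)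
open Vale.Agent.P145.FB (PStep PConn)
open Vale.Agent.P167.H259 (f_markov comp_gen cf_mono)
open Vale.Agent.P167.H72.SD (Ex_le_open closed_le_Ex)

variable {Q : ℝ} {C D P Z T : Finset (ℤ × ℤ)} {η ζ : Cfg} {F G : Cfg → ℝ}

/-- corners of the squares of `C` -/
def Tc (C : Finset (ℤ × ℤ)) (s : ℤ × ℤ) : Prop := ∃ x ∈ C, Cor x s

/-- contact sites: even corners of a square of `C` and of a square off `C` which is in `P` or open -/
def Ct (C P : Finset (ℤ × ℤ)) (ζ : Cfg) (s : ℤ × ℤ) : Prop :=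
  (s.1 + s.2) % 2 = 0 ∧ Tc C s ∧ ∃ y, y ∉ C ∧ Cor y s ∧ (y ∈ P ∨ ζ y = true)

/-- the contact sites are joined by squares off `D` which are open in `η` -/
def Jo (C D P : Finset (ℤ × ℤ)) (η ζ : Cfg) : Prop :=
  ∀ s t, Ct C P ζ s → Ct C P ζ t → ReflTransGen (PStep (op η ∩ (↑D)ᶜ)) s t

/-- the configuration of `P`: open on `P \ C` -/
noncomputable def cP (C P : Finset (ℤ × ℤ)) (ζ : Cfg) (S : Finset (ℤ × ℤ)) : Cfg :=
  cf C (cf (P \ C) ζ (P \ C)) S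

/-- the configuration of `D`: closed on `D \ C` -/
noncomputable def cD (C D : Finset (ℤ × ℤ)) (η : Cfg) (S : Finset (ℤ × ℤ)) : Cfg :=
  cf C (cf (D \ C) η ∅) S

theorem cP_in {S : Finset (ℤ × ℤ)} {v : ℤ × ℤ} (h : v ∈ C) : cP C P ζ S v = decide (v ∈ S) := by
  simp [cP, cf, h]

theorem cD_in {S : Finset (ℤ × ℤ)} {v : ℤ × ℤ} (h : v ∈ C) : cD C D η S v = decide (v ∈ S) := by
  simp [cD, cf, h]

theorem cP_out {S : Finset (ℤ × ℤ)} {v : ℤ × ℤ} (h : v ∉ C) (hv : cP C P ζ S v = true) :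
    v ∈ P ∨ ζ v = true := by
  by_cases hP : v ∈ P
  · exact Or.inl hP
  · right
    simpa [cP, cf, h, hP] using hv

theorem cD_off {S : Finset (ℤ × ℤ)} {v : ℤ × ℤ} (hC : C ⊆ D) (h : v ∉ D) : cD C D η S v = η v := by
  have h' : v ∉ C := fun h' => h (hC h')
  simp [cD, cf, h, h']

theorem cD_diff {S : Finset (ℤ × ℤ)} {v : ℤ × ℤ} (h : v ∈ D) (h' : v ∉ C) : cD C D η S v = false := by
  simp [cD, cf, h, h']

theorem rtg_mono {A B : Set (ℤ × ℤ)} (h : A ⊆ B) {s t : ℤ × ℤ} (h1 : ReflTransGen (PStep A) s t) :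
    ReflTransGen (PStep B) s t :=
  ReflTransGen.mono (fun _ _ hab => ⟨hab.1, hab.2.1, h hab.2.2⟩) _ _ h1

theorem step_par {A : Set (ℤ × ℤ)} {s t : ℤ × ℤ} (h : PStep A s t) :
    (t.1 + t.2) % 2 = (s.1 + s.2) % 2 := by
  obtain ⟨h1, h2, -⟩ := h
  omega

/-- **The connections of `P` are connections of `D`.** -/
theorem conn (hCD : C ⊆ D) (hJ : Jo C D P η ζ) {S : Finset (ℤ × ℤ)} {u v : ℤ × ℤ} (hu : Tc C u)
    (hup : (u.1 + u.2) % 2 = 0) (hv : Tc C v) (h : PC (cP C P ζ S) u v) : PC (cD C D η S) u v := by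
  have hjo : ∀ s t, Ct C P ζ s → Ct C P ζ t → PC (cD C D η S) s t := fun s t hs ht =>
    rtg_mono (fun w hw => by
      have h1 : η w = true := hw.1
      have h2 : w ∉ D := fun h => hw.2 (Finset.mem_coe.2 h)
      show cD C D η S w = true
      rw [cD_off hCD h2, h1]) (hJ s t hs ht)
  have key : (w : ℤ × ℤ) → PC (cP C P ζ S) u w → (w.1 + w.2) % 2 = 0 ∧
      ((Tc C w ∧ PC (cD C D η S) u w) ∨
        ((∃ s, Ct C P ζ s ∧ PC (cD C D η S) u s) ∧ ∃ y, y ∉ C ∧ Cor y w ∧ (y ∈ P ∨ ζ y = true))) := by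
    intro w hw
    induction hw with
    | refl => exact ⟨hup, Or.inl ⟨hu, ReflTransGen.refl⟩⟩
    | @tail w w' _ hst ih =>
      obtain ⟨hpar, ih⟩ := ih
      have hpar' : (w'.1 + w'.2) % 2 = 0 := by rw [step_par hst, hpar]
      refine ⟨hpar', ?_⟩
      obtain ⟨q, hq⟩ : ∃ q : ℤ × ℤ, q = (min w.1 w'.1, min w.2 w'.2) := ⟨_, rfl⟩
      have hc := cor_of_step hst
      have hopen : cP C P ζ S q = true := by rw [hq]; exact hst.2.2
      rw [← hq] at hc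
      by_cases hqC : q ∈ C
      · -- a square of `C`
        have hqD : cD C D η S q = true := by
          rw [cP_in hqC] at hopen
          rw [cD_in hqC, hopen]
        have hstep : PStep (op (cD C D η S)) w w' := ⟨hst.1, hst.2.1, by rw [← hq]; exact hqD⟩
        left
        refine ⟨⟨q, hqC, hc.2⟩, ?_⟩
        rcases ih with ⟨-, h1⟩ | ⟨⟨s, h1, h2⟩, h3⟩
        · exact h1.tail hstep
        · exact ((h2.trans (hjo s w h1 ⟨hpar, ⟨q, hqC, hc.1⟩, h3⟩))).tail hstep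
      · -- a square off `C`
        have hy := cP_out hqC hopen
        right
        refine ⟨?_, q, hqC, hc.2, hy⟩
        rcases ih with ⟨h1, h2⟩ | ⟨h1, -⟩
        · exact ⟨w, ⟨hpar, h1, q, hqC, hc.1, hy⟩, h2⟩
        · exact h1
  obtain ⟨h1, h2 | ⟨⟨s, h2, h3⟩, h4⟩⟩ := key v h
  · exact h2.2
  · exact h3.trans (hjo s v h2 ⟨h1, hv, h4⟩)

theorem tc_pa {a : ℤ × ℤ} (h : a ∈ C) : Tc C (pa a) ∧ ((pa a).1 + (pa a).2) % 2 = 0 :=
  ⟨⟨a, h, (cor_pa a).1⟩, Int.even_iff.1 (cor_pa a).2⟩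

theorem tc_pb {a : ℤ × ℤ} (h : a ∈ C) : Tc C (pb a) := ⟨a, h, (cor_pb a).1⟩

/-- **The sandwich, law level.** -/
theorem sandC (hQ : 1 ≤ Q) (hη : Good η) (hζ : Good ζ) (hCD : C ⊆ D) (hCP : C ⊆ P) (hZ : Z ⊆ C)
    (hT : T ⊆ Z) (hJ : Jo C D P η ζ) (hF : IncF F) (hG : IncF G)
    (hFG : ∀ S, S ⊆ C → F (cP C P ζ S) ≤ G (cD C D η S)) :
    Ex Q (P \ Z) (cf Z ζ T) F ≤ Ex Q (D \ Z) (cf Z η T) G := by
  have hgP : Good (cf Z ζ T) := f_good.1 _ _ _ hζ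
  have hgD : Good (cf Z η T) := f_good.1 _ _ _ hη
  have s1 : P \ C ⊆ P \ Z := Finset.sdiff_subset_sdiff (subset_refl _) hZ
  have s2 : D \ C ⊆ D \ Z := Finset.sdiff_subset_sdiff (subset_refl _) hZ
  have e1 : (P \ Z) \ (P \ C) = C \ Z := by
    ext v
    simp only [mem_sdiff]
    constructor
    · rintro ⟨⟨h1, h2⟩, h3⟩
      exact ⟨by_contra fun h => h3 ⟨h1, h⟩, h2⟩
    · rintro ⟨h1, h2⟩
      exact ⟨⟨hCP h1, h2⟩, fun h => h.2 h1⟩
  have e2 : (D \ Z) \ (D \ C) = C \ Z := by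
    ext v
    simp only [mem_sdiff]
    constructor
    · rintro ⟨⟨h1, h2⟩, h3⟩
      exact ⟨by_contra fun h => h3 ⟨h1, h⟩, h2⟩
    · rintro ⟨h1, h2⟩
      exact ⟨⟨hCD h1, h2⟩, fun h => h.2 h1⟩
  have c1 : ∀ R, R ⊆ C \ Z → cf (C \ Z) (cf (P \ C) (cf Z ζ T) (P \ C)) R = cP C P ζ (R ∪ T) := by
    intro R hR
    funext v
    have hRv : v ∈ R → v ∈ C ∧ v ∉ Z := fun h => mem_sdiff.1 (hR h)
    have hTv : v ∈ T → v ∈ Z := fun h => hT h
    have hZv : v ∈ Z → v ∈ C := fun h => hZ h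
    have hCv : v ∈ C → v ∈ P := fun h => hCP h
    by_cases h1 : v ∈ C <;> by_cases h2 : v ∈ Z <;> by_cases h3 : v ∈ R <;> by_cases h4 : v ∈ T <;>
      by_cases h5 : v ∈ P <;> simp_all [cP, cf]
  have c2 : ∀ R, R ⊆ C \ Z → cf (C \ Z) (cf (D \ C) (cf Z η T) ∅) R = cD C D η (R ∪ T) := by
    intro R hR
    funext v
    have hRv : v ∈ R → v ∈ C ∧ v ∉ Z := fun h => mem_sdiff.1 (hR h)
    have hTv : v ∈ T → v ∈ Z := fun h => hT h
    have hZv : v ∈ Z → v ∈ C := fun h => hZ h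
    have hCv : v ∈ C → v ∈ D := fun h => hCD h
    by_cases h1 : v ∈ C <;> by_cases h2 : v ∈ Z <;> by_cases h3 : v ∈ R <;> by_cases h4 : v ∈ T <;>
      by_cases h5 : v ∈ D <;> simp_all [cD, cf]
  have hsub : ∀ R, R ⊆ C \ Z → R ∪ T ⊆ C := fun R hR =>
    union_subset (hR.trans sdiff_subset) (hT.trans hZ)
  have k1 := Ex_le_open hQ hgP s1 hF
  have k2 := closed_le_Ex hQ hgD s2 hG
  rw [e1] at k1
  rw [e2] at k2
  refine k1.trans (le_trans ?_ k2)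
  refine comp_gen f_flip f_good hQ (f_good.1 _ _ _ hgP) (f_good.1 _ _ _ hgD)
    (fun R hR a ha _ hp => ?_) F G (fun R R' hRR _ => hF _ _ (cf_mono hRR)) (fun R hR => ?_)
  · rw [c2 R hR]
    rw [c1 R hR] at hp
    have haC := (mem_sdiff.1 ha).1
    exact conn hCD hJ (tc_pa haC).1 (tc_pa haC).2 (tc_pb haC) hp
  · rw [c1 R hR, c2 R hR]
    exact hFG _ (hsub R hR)

/-! ### Dual connections -/

/-- a site of `X` is joined to a site of `W` by closed squares of `A` -/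
def DJ (A : Finset (ℤ × ℤ)) (X W : Set (ℤ × ℤ)) (ω : Cfg) : Prop :=
  ∃ s ∈ X, ∃ t ∈ W, ReflTransGen (PStep ((op ω)ᶜ ∩ ↑A)) s t

theorem dj_dec {A : Finset (ℤ × ℤ)} {X W : Set (ℤ × ℤ)} {ω ω' : Cfg}
    (h : ∀ v, ω v = true → ω' v = true) (h1 : DJ A X W ω') : DJ A X W ω := by
  obtain ⟨s, hs, t, ht, h2⟩ := h1
  refine ⟨s, hs, t, ht, rtg_mono ?_ h2⟩
  rintro v ⟨hv1, hv2⟩
  exact ⟨fun h3 => hv1 (h v h3), hv2⟩

/-- the conditions on the odd corners -/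
structure Oc (C D : Finset (ℤ × ℤ)) (WD WP : Set (ℤ × ℤ)) : Prop where
  off : ∀ s, (s.1 + s.2) % 2 = 1 → Tc C s → ∀ y ∈ D, y ∉ C → Cor y s → s ∈ WP
  arc : ∀ s ∈ WD, (s.1 + s.2) % 2 = 1 → Tc C s → s ∈ WP

/-- **The dual connections of `D` are dual connections of `P`.** -/
theorem dconn (hCP : C ⊆ P) {WD WP X : Set (ℤ × ℤ)} (hO : Oc C D WD WP)
    (hX : ∀ s ∈ X, (s.1 + s.2) % 2 = 1 ∧ Tc C s) {S : Finset (ℤ × ℤ)}
    (h : DJ (D \ Z) X WD (cD C D η S)) : DJ (P \ Z) X WP (cP C P ζ S) := by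
  obtain ⟨s, hs, t, ht, h1⟩ := h
  have key : ∀ w, ReflTransGen (PStep ((op (cD C D η S))ᶜ ∩ ↑(D \ Z))) s w →
      (w.1 + w.2) % 2 = 1 ∧ ((∃ t' ∈ WP, ReflTransGen (PStep ((op (cP C P ζ S))ᶜ ∩ ↑(P \ Z))) s t') ∨
        (Tc C w ∧ ReflTransGen (PStep ((op (cP C P ζ S))ᶜ ∩ ↑(P \ Z))) s w)) := by
    intro w hw
    induction hw with
    | refl => exact ⟨(hX s hs).1, Or.inr ⟨(hX s hs).2, ReflTransGen.refl⟩⟩
    | @tail w w' _ hst ih =>
      obtain ⟨hpar, ih⟩ := ih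
      refine ⟨by rw [step_par hst, hpar], ?_⟩
      rcases ih with ih | ⟨hw1, hw2⟩
      · exact Or.inl ih
      · obtain ⟨q, hq⟩ : ∃ q : ℤ × ℤ, q = (min w.1 w'.1, min w.2 w'.2) := ⟨_, rfl⟩
        have hc := cor_of_step hst
        have hcl := hst.2.2
        rw [← hq] at hc hcl
        obtain ⟨hcl1, hcl2⟩ := hcl
        obtain ⟨hqD, hqZ⟩ := mem_sdiff.1 (Finset.mem_coe.1 hcl2)
        by_cases hqC : q ∈ C
        · right
          refine ⟨⟨q, hqC, hc.2⟩, hw2.tail ⟨hst.1, hst.2.1, ?_⟩⟩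
          rw [← hq]
          refine ⟨fun h2 => hcl1 ?_, Finset.mem_coe.2 (mem_sdiff.2 ⟨hCP hqC, hqZ⟩)⟩
          have h3 : cP C P ζ S q = true := h2
          rw [cP_in hqC] at h3
          show cD C D η S q = true
          rw [cD_in hqC, h3]
        · exact Or.inl ⟨w, hO.off w hpar hw1 q hqD hqC hc.1, hw2⟩
  obtain ⟨h2, h3 | ⟨h3, h4⟩⟩ := key t h1
  · obtain ⟨t', ht', h4⟩ := h3
    exact ⟨s, hs, t', ht', h4⟩
  · exact ⟨s, hs, t, hO.arc t ht h2 h3, h4⟩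

/-- **The sandwich for dual connections**: `P_D (X ~*~ WD) ≤ P_P (X ~*~ WP)`, given the squares of `Z`. -/
theorem sandA (hQ : 1 ≤ Q) (hη : Good η) (hζ : Good ζ) (hCD : C ⊆ D) (hCP : C ⊆ P) (hZ : Z ⊆ C)
    (hT : T ⊆ Z) (hJ : Jo C D P η ζ) {WD WP X : Set (ℤ × ℤ)} (hO : Oc C D WD WP)
    (hX : ∀ s ∈ X, (s.1 + s.2) % 2 = 1 ∧ Tc C s) :
    Pr Q (D \ Z) (cf Z η T) {ω | DJ (D \ Z) X WD ω} ≤
      Pr Q (P \ Z) (cf Z ζ T) {ω | DJ (P \ Z) X WP ω} := by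
  classical
  have hQ0 : 0 < Q := by linarith
  have inc : ∀ (A : Finset (ℤ × ℤ)) (W : Set (ℤ × ℤ)),
      IncF (fun ω => 1 - ({ω | DJ A X W ω} : Set Cfg).indicator (1 : Cfg → ℝ) ω) := by
    intro A W ω ω' h
    have h1 : ({ω | DJ A X W ω} : Set Cfg).indicator (1 : Cfg → ℝ) ω' ≤
        ({ω | DJ A X W ω} : Set Cfg).indicator (1 : Cfg → ℝ) ω := by
      by_cases h2 : DJ A X W ω'
      · rw [Set.indicator_of_mem (show ω' ∈ {ω | DJ A X W ω} from h2),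
          Set.indicator_of_mem (show ω ∈ {ω | DJ A X W ω} from dj_dec h h2)]
        exact le_refl (1 : ℝ)
      · rw [Set.indicator_of_notMem (show ω' ∉ {ω | DJ A X W ω} from h2)]
        exact ind_nonneg _ _
    show 1 - _ ≤ 1 - _
    linarith
  have h := sandC hQ hη hζ hCD hCP hZ hT hJ (inc (P \ Z) WP) (inc (D \ Z) WD) (fun S _ => by
    have h1 : ({ω | DJ (D \ Z) X WD ω} : Set Cfg).indicator (1 : Cfg → ℝ) (cD C D η S) ≤
        ({ω | DJ (P \ Z) X WP ω} : Set Cfg).indicator (1 : Cfg → ℝ) (cP C P ζ S) := by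
      by_cases h2 : DJ (D \ Z) X WD (cD C D η S)
      · rw [Set.indicator_of_mem (show cD C D η S ∈ {ω | DJ (D \ Z) X WD ω} from h2),
          Set.indicator_of_mem (show cP C P ζ S ∈ {ω | DJ (P \ Z) X WP ω} from dconn hCP hO hX h2)]
        exact le_refl (1 : ℝ)
      · rw [Set.indicator_of_notMem (show cD C D η S ∉ {ω | DJ (D \ Z) X WD ω} from h2)]
        exact ind_nonneg _ _
    show 1 - _ ≤ 1 - _
    linarith)
  rw [FKA.Ex_sub (D := P \ Z) (fun _ => 1) (({ω | DJ (P \ Z) X WP ω} : Set Cfg).indicator 1),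
    FKA.Ex_sub (D := D \ Z) (fun _ => 1) (({ω | DJ (D \ Z) X WD ω} : Set Cfg).indicator 1),
    FKA.Ex_const hQ0, FKA.Ex_const hQ0] at h
  unfold Pr
  linarith

end Vale.Agent.P167.H632Q.Sand
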