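import Vale.Agent.P167.H192.Q.Arm2
import Vale.Agent.P167.H632.EscP
import Vale.Agent.P167.H685.Q.Defs

/-!
# P167, general `q`, block Q-NSYM: the escape estimate `ESCQ`, from `SRSW`
-/

namespace Vale.Agent.P167.H632Q

open Relation Vale.Agent.P167 Vale.Agent.P167.FKA Vale.Agent.P167.H192.TA
  Vale.Agent.P167.H632 Vale.Agent.P167.H871 Vale.Agent.P167.H192.Q Vale.Agent.P153
  Vale.Agent.P153.Topo
open Vale.Agent.P145.FB (PStep PConn)
open Vale.Agent.P167.H259 (f_markov)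
open Vale.Agent.P167.FK (cf Good)

/-- The strand before its first fresh square does not depend on the fresh squares. -/
theorem pth_eq (S : H318.St) {ξ : Cfg} (hξ : ∀ v, v ∉ S.F → ξ v = S.z v) :
    ∀ i ≤ S.m, pth ξ S.e0 i = pth S.z S.e0 i := by
  intro i
  induction i with
  | zero => exact fun _ => rfl
  | succ i ih =>
    intro hi
    rw [pth_succ, pth_succ, ih (by omega)]
    have h1 := (lt_hit (D := S.D) (e0 := S.e0) (A := (S.F : Set Pt)) (ξ := S.z)
      (show i < H318.hit S.D S.e0 (↑S.F) S.z from by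
        have : S.m = H318.hit S.D S.e0 (↑S.F) S.z := rfl
        omega)).1
    exact H192.nx_congr (hξ _ h1)

/-- the value of the potential on the chain of colour `c` of the past -/
def tg (a : ℤ) (c : Bool) : ℤ := a + if c then 1 else 0

/-- The squares of the half annulus which are explored or touch the chain of colour `c`. -/
noncomputable def Zc (F : Finset Pt) (u : Pt → ℤ) (a : ℤ) (c : Bool) (b : Pt) (r R : ℤ) :
    Finset Pt := by
  classical
  exact (dF b r R).filter fun v => v ∉ F ∨ ∃ x, Cor v x ∧ (x.1 + x.2) % 2 = pr c ∧ u x = tg a c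

theorem mem_Zc {F : Finset Pt} {u : Pt → ℤ} {a : ℤ} {c : Bool} {b : Pt} {r R : ℤ} {v : Pt} :
    v ∈ Zc F u a c b r R ↔ v ∈ dF b r R ∧
      (v ∉ F ∨ ∃ x, Cor v x ∧ (x.1 + x.2) % 2 = pr c ∧ u x = tg a c) := by
  classical
  unfold Zc
  rw [Finset.mem_filter]

/-- The past and its potential. -/
structure PD (S : H318.St) (b : Pt) (r : ℤ) (u : Pt → ℤ) (a : ℤ) : Prop where
  past : ∀ i ≤ S.m, u (rs (pth S.z S.e0 i)) = a ∧ u (ls (pth S.z S.e0 i)) = a + 1
  flat : ∀ e', hdv e' ∈ S.D → tlv e' ∈ S.D → ¬ (hdv e' ∈ hq b r ∧ tlv e' ∈ hq b r) →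
    (∀ i ≤ S.m, pth S.z S.e0 i ≠ e') → u (ls e') = u (rs e')

theorem off_F {S : H318.St} {i : ℕ} (hi : i < S.m) :
    hdv (pth S.z S.e0 i) ∉ S.F ∧ hdv (pth S.z S.e0 i) ∈ S.D := by
  have h := lt_hit (D := S.D) (e0 := S.e0) (A := (S.F : Set Pt)) (ξ := S.z) (i := i) hi
  exact ⟨fun h' => h.1 (Finset.mem_coe.2 h'), h.2⟩

theorem pd_of {S : H318.St} (hOk : S.Ok) {b : Pt} {r : ℤ} (hm : 1 ≤ S.m)
    (hFU : FlatU (S.D : Set Pt) b r) (hF : ∀ v ∈ hq b r, v ∈ S.F)
    (htip : hdv S.tip ∈ hq b r) : ∃ u a, PD S b r u a := by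
  have hP : Past (S.D : Set Pt) b r S.z S.e0 S.m := by
    refine ⟨hOk.st, hm, fun l hl => (off_F hl).2, fun l hl hmem => (off_F hl).1 (hF _ hmem), htip⟩
  obtain ⟨u, hu1, hu2⟩ := hP.potU (ex_of_co hOk.co) hFU
  refine ⟨u, u (rs S.e0), ?_, fun e' h1 h2 h3 h4 => hu2 e' h1 h2 h3 h4⟩
  intro i
  induction i with
  | zero => intro _; exact ⟨rfl, hu1 0 (by omega)⟩
  | succ i ih =>
    intro hi
    obtain ⟨a1, a2⟩ := ih (by omega)
    have a3 := hu1 (i + 1) hi
    rw [pth_succ] at a3 ⊢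
    rcases step_cases S.z (pth S.z S.e0 i) with ⟨-, h5, -⟩ | ⟨-, h5, -⟩
    · rw [h5] at a3 ⊢; omega
    · rw [h5] at a3 ⊢; omega

variable {S : H318.St} {b : Pt} {r R : ℤ} {u : Pt → ℤ} {a : ℤ}

/-- The corners of an explored square. -/
theorem PD.expl (h : PD S b r u a) {c : Bool} {v : Pt} (hv : v ∈ S.Hs) (hc : S.z v = c) {x : Pt}
    (hx : Cor v x) (hp : (x.1 + x.2) % 2 = pr c) : u x = tg a c := by
  obtain ⟨i, hi, hiv⟩ := hv
  have hiv : hdv (pth S.z S.e0 i) = v := hiv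
  have h1 := h.past i hi.le
  have h2 := h.past (i + 1) hi
  rw [pth_succ] at h2
  rcases step_cases S.z (pth S.z S.e0 i) with ⟨h5, -, h6⟩ | ⟨h5, -, h6⟩
  · rw [hiv] at h5 h6
    have hct : c = true := by rw [← hc, h5]
    subst hct
    rcases diag_eq h6 hx (by rw [ls_par, hp]; rfl) with h8 | h8
    · rw [h8, h1.2]; rfl
    · rw [h8, h2.2]; rfl
  · rw [hiv] at h5 h6
    have hct : c = false := by rw [← hc, h5]
    subst hct
    rcases diag_eq h6 hx (by rw [rs_par, hp]; rfl) with h8 | h8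
    · rw [h8, h1.1]; simp [tg]
    · rw [h8, h2.1]; simp [tg]

/-- The corners of a fresh square off the hole. -/
theorem PD.fresh (h : PD S b r u a) (hOk : S.Ok) (hFU : FlatU (S.D : Set Pt) b R)
    (htip : hdv S.tip ∈ hq b r) {v : Pt} (hvF : v ∈ S.F) (hv : v ∈ dq b (r + 1) (R - 1)) {x y : Pt}
    (hx : Cor v x) (hy : Cor v y) : u x = u y := by
  have hsub := hFU.sub
  have hvq : v ∉ hq b r := by
    intro h'
    rw [mem_hq] at h'
    simp only [dq, Set.mem_ofPred_eq] at hv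
    omega
  have key : ∀ e' : Ed, (hdv e' = v ∨ tlv e' = v) → hdv e' ∈ S.D → tlv e' ∈ S.D →
      u (ls e') = u (rs e') := by
    intro e' he h1 h2
    refine h.flat e' h1 h2 ?_ ?_
    · rintro ⟨g1, g2⟩
      rcases he with he | he
      · rw [he] at g1; exact hvq g1
      · rw [he] at g2; exact hvq g2
    · rintro i hi rfl
      rcases he with he | he
      · rcases lt_or_eq_of_le hi with h3 | h3
        · exact (off_F h3).1 (by rw [he]; exact hvF)
        · subst h3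
          apply hvq
          rw [← he]
          exact htip
      · rcases Nat.eq_zero_or_pos i with h3 | h3
        · subst h3
          exact hOk.st h2
        · obtain ⟨j, rfl⟩ : ∃ j, i = j + 1 := ⟨i - 1, by omega⟩
          rw [tlv_pth] at he
          exact (off_F (show j < S.m by omega)).1 (by rw [he]; exact hvF)
  obtain ⟨p, q⟩ := v
  have hD : ∀ p' q' : ℤ, p - 1 ≤ p' → p' ≤ p + 1 → q ≤ q' → q' ≤ q + 1 → ((p', q') : Pt) ∈ S.D := by
    intro p' q' g1 g2 g3 g4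
    refine Finset.mem_coe.1 (hsub ?_)
    rw [mem_hq]
    simp only [dq, Set.mem_ofPred_eq] at hv
    dsimp only
    omega
  have e1 : u (p + 1, q) = u (p + 1, q + 1) := by
    have := key (Sum.inl (p, q)) (by rcases sq_inl (p, q) with h' | h' <;> rw [h'.1, h'.2.1] <;> simp)
      (by rcases sq_inl (p, q) with h' | h' <;> rw [h'.1] <;> exact hD _ _ (by omega)
            (by omega) (by omega) (by omega))
      (by rcases sq_inl (p, q) with h' | h' <;> rw [h'.2.1] <;> exact hD _ _ (by omega)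
            (by omega) (by omega) (by omega))
    rcases sq_inl (p, q) with h' | h' <;> rw [h'.2.2.2.1, h'.2.2.2.2] at this <;>
      dsimp only at this <;> omega
  have e2 : u (p, q) = u (p, q + 1) := by
    have := key (Sum.inl (p - 1, q))
      (by rcases sq_inl (p - 1, q) with h' | h' <;> rw [h'.1, h'.2.1] <;> simp)
      (by rcases sq_inl (p - 1, q) with h' | h' <;> rw [h'.1] <;> exact hD _ _ (by omega)
            (by omega) (by omega) (by omega))
      (by rcases sq_inl (p - 1, q) with h' | h' <;> rw [h'.2.1] <;> exact hD _ _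
            (by omega) (by omega) (by omega)
            (by omega))
    rcases sq_inl (p - 1, q) with h' | h' <;> rw [h'.2.2.2.1, h'.2.2.2.2] at this <;>
      dsimp only at this <;> rw [show p - 1 + 1 = p by ring] at this <;> omega
  have e3 : u (p, q + 1) = u (p + 1, q + 1) := by
    have := key (Sum.inr (p, q)) (by rcases sq_inr (p, q) with h' | h' <;> rw [h'.1, h'.2.1] <;> simp)
      (by rcases sq_inr (p, q) with h' | h' <;> rw [h'.1] <;> exact hD _ _ (by omega)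
            (by omega) (by omega) (by omega))
      (by rcases sq_inr (p, q) with h' | h' <;> rw [h'.2.1] <;> exact hD _ _ (by omega)
            (by omega) (by omega) (by omega))
    rcases sq_inr (p, q) with h' | h' <;> rw [h'.2.2.2.1, h'.2.2.2.2] at this <;>
      dsimp only at this <;> omega
  have all : ∀ w : Pt, Cor (p, q) w → u w = u (p, q) := by
    rintro ⟨w1, w2⟩ ⟨g1, g2⟩
    dsimp only at g1 g2
    rcases g1 with g1 | g1 <;> rcases g2 with g2 | g2 <;> subst g1 <;> subst g2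
    · rfl
    · exact e2.symm
    · rw [e1, ← e3, ← e2]
    · rw [← e3, ← e2]
  rw [all x hx, all y hy]

/-- The skin of the explored squares and of the squares at the chain of colour `c`. -/
theorem PD.skin (h : PD S b r u a) (hOk : S.Ok) (hFU : FlatU (S.D : Set Pt) b R)
    (htip : hdv S.tip ∈ hq b r) (hPO : H318.PO S (hq b R)) {c : Bool} {ξ : Cfg}
    (hξ : ∀ v, v ∉ S.F → ξ v = S.z v) :
    Skin c (dF b (r + 1) (R - 1) \ Zc S.F u a c b (r + 1) (R - 1)) (dF b (r + 1) (R - 1)) ξ := by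
  intro v hv hvA hvc p hp x hx hvx hpx
  have hvZ : v ∈ Zc S.F u a c b (r + 1) (R - 1) := by
    by_contra h'
    exact hvA (Finset.mem_sdiff.2 ⟨hv, h'⟩)
  have hval : u x = tg a c := by
    rcases (mem_Zc.1 hvZ).2 with h1 | ⟨y, h1, h2, h3⟩
    · have h4 : v ∈ S.Hs := by
        rcases hPO v (by
          have := mem_dF.1 hv
          rw [mem_hq]
          simp only [dq, Set.mem_ofPred_eq] at this
          omega) with h5 | h5
        · exact absurd h5 h1
        · exact h5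
      exact h.expl h4 (by rw [← hξ v h1]; exact hvc) hvx hx
    · by_cases h4 : v ∈ S.F
      · rw [h.fresh hOk hFU htip h4 (mem_dF.1 hv) hvx h1, h3]
      · have h5 : v ∈ S.Hs := by
          rcases hPO v (by
            have := mem_dF.1 hv
            rw [mem_hq]
            simp only [dq, Set.mem_ofPred_eq] at this
            omega) with h5 | h5
          · exact absurd h5 h4
          · exact h5
        exact h.expl h5 (by rw [← hξ v h4]; exact hvc) hvx hx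
  refine (Finset.mem_sdiff.1 hp).2 (mem_Zc.2 ⟨(Finset.mem_sdiff.1 hp).1, Or.inr ⟨x, hpx, hx, hval⟩⟩)

/-! ### The chains of a run -/

/-- A run between distance `r` and distance `R`, the squares of its chain of colour `c` are off `Z`. -/
theorem fx_run_c {r R : ℤ} (hrR : r + 3 ≤ R) {ω : Cfg} {f : Ed} {n : ℕ} (Z : Set Pt) (c : Bool)
    (hb2 : ∀ i ≤ n, b.2 ≤ (hdv (pth ω f i)).2)
    (hd : ∀ i, 1 ≤ i → i < n → ω (hdv (pth ω f i)) = c → hdv (pth ω f i) ∉ Z)
    (h4 : (nm (hdv (pth ω f 0) - b) ≤ r ∧ nm (hdv (pth ω f n) - b) = R) ∨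
      (nm (hdv (pth ω f 0) - b) = R ∧ nm (hdv (pth ω f n) - b) ≤ r)) :
    ω ∈ FX c Z b (r + 1) (R - 1) := by
  have h := fx_of_run hrR (Z ∪ {v | ω v = !c}) hb2 (by
    cases c
    · left
      intro i h1 h2 h3 h5
      rcases h5 with h5 | h5
      · exact hd i h1 h2 h3 h5
      · have h6 : ω (hdv (pth ω f i)) = !false := h5
        rw [h3] at h6
        exact absurd h6 (by simp)
    · right
      intro i h1 h2 h3 h5
      rcases h5 with h5 | h5
      · exact hd i h1 h2 h3 h5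
      · have h6 : ω (hdv (pth ω f i)) = !true := h5
        rw [h3] at h6
        exact absurd h6 (by simp)) h4
  -- the other colour is impossible
  have no : ω ∉ FX (!c) (Z ∪ {v | ω v = !c}) b (r + 1) (R - 1) := by
    rintro ⟨y, y', h1, h2, h3, h0, h5⟩
    have : y = y' := by
      induction h5 with
      | refl => rfl
      | @tail x z _ hxz _ =>
        exfalso
        obtain ⟨⟨-, -, hx1, hx2⟩, -⟩ := hxz
        exact hx2 (Or.inr hx1)
    subst this
    omega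
  have sub : ω ∈ FX c (Z ∪ {v | ω v = !c}) b (r + 1) (R - 1) → ω ∈ FX c Z b (r + 1) (R - 1) := by
    rintro ⟨y, y', h1, h2, h3, h5⟩
    refine ⟨y, y', h1, h2, h3, h5.mono ?_ subset_rfl⟩
    rintro w ⟨hw1, hw2⟩
    exact ⟨hw1, fun h' => hw2 (Or.inl h')⟩
  rcases h with h | h
  · cases c
    · exact absurd h no
    · exact sub h
  · cases c
    · exact sub h
    · exact absurd h no

theorem xo_of_fx {c : Bool} {ω : Cfg} {Z : Finset Pt} {r R : ℤ} (h : ω ∈ FX c ↑Z b r R) :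
    ω ∈ Xo c Z b r R := by
  have hx : kill c Z ω ∈ HX c b r R := by
    obtain ⟨y, y', h1, h2, h3, h4⟩ := h
    refine ⟨y, y', h1, h2, h3, h4.mono ?_ subset_rfl⟩
    rintro w ⟨hw1, hw2⟩
    show kill c Z ω w = c
    rw [kill_out fun h' => hw2 (Finset.mem_coe.2 h')]
    exact hw1
  obtain ⟨y, y', h1, h2, h3, h4, h5⟩ := Xc_of_HX hx
  refine ⟨y, y', h1, h2, h3, h4.mono ?_, h5⟩
  rintro v ⟨hv1, hv2⟩
  have hv1' : kill c Z ω v = c := hv1
  by_cases hvO : v ∈ Z
  · rw [kill_in hvO] at hv1'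
    cases c <;> simp at hv1'
  · rw [kill_out hvO] at hv1'
    exact ⟨hv1', hv2, fun h' => hvO (Finset.mem_coe.1 h')⟩

/-- A segment which does not use edges of the past: one of the two chains is off its skin. -/
theorem PD.seg (h : PD S b r u a) (hPO : H318.PO S (hq b R)) {ξ : Cfg}
    (hξ : ∀ v, v ∉ S.F → ξ v = S.z v) {f : Ed} {n : ℕ}
    (h1 : ∀ i ≤ n, hdv (pth ξ f i) ∈ S.D)
    (h2 : ∀ i < n, ¬ (hdv (pth ξ f i) ∈ hq b r ∧ hdv (pth ξ f (i + 1)) ∈ hq b r))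
    (h3 : ∀ i < n, ∀ j ≤ S.m, pth S.z S.e0 j ≠ pth ξ f (i + 1)) :
    ∃ c : Bool, ∀ i, 1 ≤ i → i < n → ξ (hdv (pth ξ f i)) = c →
      hdv (pth ξ f i) ∉ Zc S.F u a c b (r + 1) (R - 1) := by
  -- the constant of the segment
  have hseg : ∀ i < n, u (ls (pth ξ f (i + 1))) = u (ls (pth ξ f 1)) ∧
      u (rs (pth ξ f (i + 1))) = u (ls (pth ξ f 1)) := by
    have key : ∀ i < n, u (ls (pth ξ f (i + 1))) = u (rs (pth ξ f (i + 1))) := by
      intro i hi
      refine h.flat _ (h1 (i + 1) (by omega)) ?_ ?_ (fun j hj => h3 i hi j hj)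
      · rw [tlv_pth]; exact h1 i (by omega)
      · rw [tlv_pth]
        rintro ⟨a, a'⟩
        exact h2 i hi ⟨a', a⟩
    intro i
    induction i with
    | zero => intro hi; exact ⟨rfl, (key 0 hi).symm⟩
    | succ i ih =>
      intro hi
      obtain ⟨a1, a2⟩ := ih (by omega)
      have a3 := key (i + 1) hi
      have e1 : pth ξ f (i + 1 + 1) = nx ξ (pth ξ f (i + 1)) := pth_succ _ _ _
      rw [e1] at a3 ⊢
      rcases step_cases ξ (pth ξ f (i + 1)) with ⟨-, h5, -⟩ | ⟨-, h5, -⟩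
      · rw [h5] at a3 ⊢; omega
      · rw [h5] at a3 ⊢; omega
  -- a square of the chain of colour `c` in `Z_c` forces the constant
  have key : ∀ c : Bool, (∃ i, 1 ≤ i ∧ i < n ∧ ξ (hdv (pth ξ f i)) = c ∧
      hdv (pth ξ f i) ∈ Zc S.F u a c b (r + 1) (R - 1)) → u (ls (pth ξ f 1)) = tg a c := by
    rintro c ⟨i, i1, i2, i3, i4⟩
    obtain ⟨i0, rfl⟩ : ∃ i0, i = i0 + 1 := ⟨i - 1, by omega⟩
    have a1 := hseg i0 (by omega)
    have a2 := hseg (i0 + 1) (by omega)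
    have e1 : pth ξ f (i0 + 1 + 1) = nx ξ (pth ξ f (i0 + 1)) := pth_succ _ _ _
    rw [e1] at a2
    have hval : ∀ x, Cor (hdv (pth ξ f (i0 + 1))) x → (x.1 + x.2) % 2 = pr c →
        u x = u (ls (pth ξ f 1)) := by
      intro x hx hxp
      rcases step_cases ξ (pth ξ f (i0 + 1)) with ⟨h5, -, h6⟩ | ⟨h5, -, h6⟩
      · have hct : c = true := by rw [← i3, h5]
        subst hct
        rcases diag_eq h6 hx (by rw [ls_par, hxp]; rfl) with h8 | h8
        · rw [h8, a1.1]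
        · rw [h8, a2.1]
      · have hct : c = false := by rw [← i3, h5]
        subst hct
        rcases diag_eq h6 hx (by rw [rs_par, hxp]; rfl) with h8 | h8
        · rw [h8, a1.2]
        · rw [h8, a2.2]
    have hex : ∃ x, Cor (hdv (pth ξ f (i0 + 1))) x ∧ (x.1 + x.2) % 2 = pr c := by
      cases c
      · exact ⟨_, (corners (pth ξ f (i0 + 1))).2, rs_par _⟩
      · exact ⟨_, (corners (pth ξ f (i0 + 1))).1, ls_par _⟩
    obtain ⟨g1, g2⟩ := mem_Zc.1 i4
    rcases g2 with g2 | ⟨x, g2, g3, g4⟩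
    · obtain ⟨x, hx, hxp⟩ := hex
      have h4 : hdv (pth ξ f (i0 + 1)) ∈ S.Hs := by
        rcases hPO (hdv (pth ξ f (i0 + 1))) (by
          have := mem_dF.1 g1
          rw [mem_hq]
          simp only [dq, Set.mem_ofPred_eq] at this
          omega) with h5 | h5
        · exact absurd h5 g2
        · exact h5
      rw [← hval x hx hxp]
      exact h.expl h4 (by rw [← hξ _ g2]; exact i3) hx hxp
    · rw [← hval x g2 g3, g4]
  by_contra hcon
  push Not at hcon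
  have k1 := key true (by
    obtain ⟨i, i1, i2, i3, i4⟩ := hcon true
    exact ⟨i, i1, i2, i3, i4⟩)
  have k2 := key false (by
    obtain ⟨i, i1, i2, i3, i4⟩ := hcon false
    exact ⟨i, i1, i2, i3, i4⟩)
  rw [k1] at k2
  simp [tg] at k2

/-! ### The deterministic part -/

/-- The first square of the strand off the half box is at distance `R`. -/
theorem first_far {S : H318.St} {b r R : ℤ} (hrR : r ≤ R) {ξ : Cfg}
    (hξ : ∀ v, v ∉ S.F → ξ v = S.z v) (hFU : FlatU (S.D : Set Pt) ((b, 0) : Pt) R)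
    (htip : hdv S.tip ∈ hq (b, 0) r) (hv : H318.Visit S.D S.e0 S.m (hq ((b, 0) : Pt) R)ᶜ ξ) :
    ∃ i, S.m < i ∧ (∀ l ≤ i, hdv (pth ξ S.e0 l) ∈ S.D) ∧
      (∀ l, S.m ≤ l → l < i → hdv (pth ξ S.e0 l) ∈ hq (b, 0) R) ∧
      hdv (pth ξ S.e0 i) ∉ hq (b, 0) R ∧ R ≤ nm (hdv (pth ξ S.e0 i) - ((b, 0) : Pt)) := by
  classical
  obtain ⟨j, hj1, hj2, hj3⟩ := hv
  have hj3 : hdv (pth ξ S.e0 j) ∉ hq ((b, 0) : Pt) R := hj3
  have htip' : hdv (pth ξ S.e0 S.m) ∈ hq ((b, 0) : Pt) r := by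
    rw [pth_eq S hξ S.m le_rfl]
    exact htip
  have hex : ∃ i, S.m ≤ i ∧ hdv (pth ξ S.e0 i) ∉ hq ((b, 0) : Pt) R := ⟨j, hj1, hj3⟩
  obtain ⟨i, hi1, hi2, hi3, hi4⟩ : ∃ i, S.m ≤ i ∧ hdv (pth ξ S.e0 i) ∉ hq ((b, 0) : Pt) R ∧ i ≤ j ∧
      ∀ l, S.m ≤ l → l < i → hdv (pth ξ S.e0 l) ∈ hq ((b, 0) : Pt) R := by
    refine ⟨Nat.find hex, (Nat.find_spec hex).1, (Nat.find_spec hex).2,
      Nat.find_min' hex ⟨hj1, hj3⟩, ?_⟩
    intro l hl hlt
    by_contra hcon
    exact Nat.find_min hex hlt ⟨hl, hcon⟩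
  have hiD : ∀ l ≤ i, hdv (pth ξ S.e0 l) ∈ (S.D : Set Pt) := fun l hl =>
    lt_ex (lt_of_le_of_lt (hl.trans hi3) hj2)
  have himt : S.m < i := by
    rcases lt_or_eq_of_le hi1 with h5 | h5
    · exact h5
    · exfalso
      apply hi2
      rw [← h5]
      exact ⟨htip'.1, le_trans htip'.2 hrR⟩
  refine ⟨i, himt, hiD, hi4, hi2, ?_⟩
  by_contra hcon
  push Not at hcon
  obtain ⟨l, rfl⟩ : ∃ l, i = l + 1 := ⟨i - 1, by omega⟩
  have h5 := hi4 l (by omega) (by omega)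
  have h6 := hiD (l + 1) le_rfl
  rw [← tlv_pth] at h5
  have h7 := mem_bl.1 (show hdv (pth ξ S.e0 (l + 1)) ∈ bl ((b, 0) : Pt) R from hcon.le)
  have h8 : (hdv (pth ξ S.e0 (l + 1))).2 ≠ -1 := by
    intro h9
    apply hFU.row (hdv (pth ξ S.e0 (l + 1))).1 h7.1 h7.2.1
    have : ((hdv (pth ξ S.e0 (l + 1))).1, ((b, 0) : Pt).2 - 1) = hdv (pth ξ S.e0 (l + 1)) := by
      rw [Prod.ext_iff]
      exact ⟨rfl, by dsimp only; omega⟩
    rw [this]
    exact h6
  apply hi2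
  refine ⟨?_, hcon.le⟩
  have h10 : (0 : ℤ) ≤ (tlv (pth ξ S.e0 (l + 1))).2 := h5.1
  revert h10 h8
  show _ → _ → (0 : ℤ) ≤ _
  generalize pth ξ S.e0 (l + 1) = g
  rcases g with v | v
  · rcases sq_inl v with h' | h' <;> rw [h'.1, h'.2.1] <;> dsimp only <;> omega
  · rcases sq_inr v with h' | h' <;> rw [h'.1, h'.2.1] <;> dsimp only <;> omega

/-- **Deterministic part.** -/
theorem det {S : H318.St} {b r R : ℤ} (h4 : r + 3 ≤ R) (hOk : S.Ok)
    (hFU : FlatU (S.D : Set Pt) ((b, 0) : Pt) R) (hF : ∀ v ∈ hq ((b, 0) : Pt) r, v ∈ S.F)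
    (hPO : H318.PO S (hq ((b, 0) : Pt) R)) (htip : hdv S.tip ∈ hq ((b, 0) : Pt) r) :
    ∃ Z : Bool → Finset Pt, (∀ c, dF (b, 0) (r + 1) (R - 1) \ Z c ⊆ S.F) ∧
      (∀ (c : Bool) (ξ : Cfg), (∀ v, v ∉ S.F → ξ v = S.z v) →
        Skin c (dF (b, 0) (r + 1) (R - 1) \ Z c) (dF (b, 0) (r + 1) (R - 1)) ξ) ∧
      ∀ ξ : Cfg, (∀ v, v ∉ S.F → ξ v = S.z v) →
        H318.Visit S.D S.e0 S.m (hq ((b, 0) : Pt) R)ᶜ ξ →
        ξ ∈ Xo true (Z true) (b, 0) (r + 1) (R - 1) ∪ Xo false (Z false) (b, 0) (r + 1) (R - 1) := by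
  have far : ∀ ξ : Cfg, (∀ v, v ∉ S.F → ξ v = S.z v) →
      H318.Visit S.D S.e0 S.m (hq ((b, 0) : Pt) R)ᶜ ξ →
      ∃ (l n : ℕ), S.m ≤ l ∧ (∀ i ≤ l + n, hdv (pth ξ S.e0 i) ∈ S.D) ∧
        (∀ i ≤ n, (0 : ℤ) ≤ (hdv (pth ξ (pth ξ S.e0 l) i)).2) ∧
        (∀ i, 1 ≤ i → i ≤ n → hdv (pth ξ (pth ξ S.e0 l) i) ∉ hq ((b, 0) : Pt) r) ∧
        nm (hdv (pth ξ (pth ξ S.e0 l) 0) - ((b, 0) : Pt)) ≤ r ∧
        nm (hdv (pth ξ (pth ξ S.e0 l) n) - ((b, 0) : Pt)) = R := by
    intro ξ hξ hv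
    obtain ⟨i, hi1, hiD, hi4, hi2, hfar⟩ := first_far (r := r) (by omega) hξ hFU htip hv
    have htip' : hdv (pth ξ S.e0 S.m) ∈ hq ((b, 0) : Pt) r := by
      rw [pth_eq S hξ S.m le_rfl]
      exact htip
    obtain ⟨l, n, a1, a2, a3, a4, a5, a6, a7⟩ := seg_of_far (by omega) htip' hi1.le hfar
    refine ⟨l, n, a1, fun i' hi' => hiD _ (by omega), ?_, fun i' h1 h2 => ?_, ?_, ?_⟩
    · exact up_of_row (b := ((b, 0) : Pt)) (f := pth ξ S.e0 l) (n := n) (ω := ξ)
        hFU.row a4.1 (fun i'' hi'' => by rw [pth_add]; exact hiD _ (by omega))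
        (fun i'' hi'' => by rw [pth_add]; exact a6 _ (by omega))
    · rw [pth_add]; exact a5 i' h1 h2
    · rw [pth_zero]; exact a4.2
    · rw [pth_add]; exact a7
  rcases Nat.eq_zero_or_pos S.m with hm | hm
  · have hall : ∀ v ∈ hq ((b, 0) : Pt) R, v ∈ S.F := by
      intro v hv
      rcases hPO v hv with h | ⟨i, hi, -⟩
      · exact h
      · omega
    refine ⟨fun _ => ∅, fun c v hv => ?_, fun c ξ _ v hv hv' => ?_, fun ξ hξ hv => ?_⟩
    · refine hall v ?_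
      have := mem_dF.1 (Finset.mem_sdiff.1 hv).1
      rw [mem_hq]
      simp only [dq, Set.mem_ofPred_eq] at this
      dsimp only at this ⊢
      omega
    · exact absurd (Finset.mem_sdiff.2 ⟨hv, Finset.notMem_empty _⟩) hv'
    · obtain ⟨l, n, g1, g2, g3, g4, g5, g6⟩ := far ξ hξ hv
      left
      refine xo_of_fx (fx_run_c h4 _ true g3 ?_ (Or.inl ⟨g5, g6⟩))
      intro i _ _ _ hcon
      exact absurd (Finset.mem_coe.1 hcon) (Finset.notMem_empty _)
  · obtain ⟨u, a, hPD⟩ := pd_of hOk hm (hFU.mono (by omega)) hF htip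
    refine ⟨fun c => Zc S.F u a c (b, 0) (r + 1) (R - 1), fun c v hv => ?_, fun c ξ hξ => ?_,
      fun ξ hξ hv => ?_⟩
    · by_contra h
      exact (Finset.mem_sdiff.1 hv).2 (mem_Zc.2 ⟨(Finset.mem_sdiff.1 hv).1, Or.inl h⟩)
    · exact hPD.skin hOk hFU htip hPO hξ
    · obtain ⟨l, n, g1, g2, g3, g4, g5, g6⟩ := far ξ hξ hv
      obtain ⟨c, hc⟩ := hPD.seg hPO hξ (f := pth ξ S.e0 l) (n := n)
        (fun i hi => by rw [pth_add]; exact g2 _ (by omega))
        (fun i hi h => g4 (i + 1) (by omega) (by omega) h.2)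
        (fun i hi j hj => by
          rw [pth_add, ← pth_eq S hξ j hj]
          exact pth_inj (D := (S.D : Set Pt)) hOk.st (n := l + n) (fun i hi => g2 i (by omega))
            (by omega) (by omega))
      have h5 := xo_of_fx (fx_run_c h4 _ c g3 hc (Or.inl ⟨g5, g6⟩))
      cases c
      · exact Or.inr h5
      · exact Or.inl h5

theorem Pr_mono' {Q : ℝ} (hQ : 0 < Q) {D : Finset Pt} {η : Cfg} {A B : Set Cfg}
    (h : ∀ T, T ⊆ D → cf D η T ∈ A → cf D η T ∈ B) : FK.Pr Q D η A ≤ FK.Pr Q D η B := by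
  refine Ex_mono hQ fun T hT => ?_
  by_cases h1 : cf D η T ∈ A
  · rw [Set.indicator_of_mem h1, Set.indicator_of_mem (h T hT h1)]
  · rw [Set.indicator_of_notMem h1]
    exact ind_nonneg _ _

/-- **The escape estimate.** -/
theorem escq {Q : ℝ} (hQ : 1 ≤ Q) (hS : SRSW Q) : H685.Q.ESCQ Q := by
  obtain ⟨α, C, hα, hC, h⟩ := pX_dec hQ hS
  have hQ0 : 0 < Q := by linarith
  refine ⟨max (2 * C * 4 ^ α) (4 ^ α), α, by positivity, hα, ?_⟩
  intro S b r R hr hrR hOk hG hD hrow hF hPO htip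
  rw [HB_eq] at hD hF hPO htip
  rw [HB_eq]
  have hr' : (1 : ℝ) ≤ r := by exact_mod_cast hr
  have hR' : (r : ℝ) ≤ R := by exact_mod_cast hrR
  have hrR0 : (0 : ℝ) ≤ (r : ℝ) / R := div_nonneg (by linarith) (by linarith)
  rcases lt_or_ge R (r + 4) with h4 | h4
  · have h5 : (R : ℝ) ≤ 4 * r := by exact_mod_cast (by omega : R ≤ 4 * r)
    refine (Pr_le_one hQ0 _).trans ?_
    calc (1 : ℝ) = 1 ^ α := (Real.one_rpow α).symm
      _ ≤ (4 * ((r : ℝ) / R)) ^ α := by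
          refine Real.rpow_le_rpow zero_le_one ?_ hα.le
          rw [mul_div_assoc', le_div_iff₀ (by linarith)]
          linarith
      _ = 4 ^ α * ((r : ℝ) / R) ^ α := Real.mul_rpow (by norm_num) hrR0
      _ ≤ _ := mul_le_mul_of_nonneg_right (le_max_right _ _) (Real.rpow_nonneg hrR0 _)
  have hFU : FlatU (S.D : Set Pt) ((b, 0) : Pt) R :=
    ⟨fun v hv => hD v hv, fun x h1 h2 => hrow x h1 h2⟩
  obtain ⟨Z, hZ1, hZ2, hZ3⟩ := det (by omega) hOk hFU hF hPO htip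
  have hone : ∀ c, FK.Pr Q S.F S.z (Xo c (Z c) (b, 0) (r + 1) (R - 1)) ≤
      C * (((r + 1 : ℤ) : ℝ) / ((R - 1 : ℤ) : ℝ)) ^ α := by
    intro c
    unfold FK.Pr
    rw [f_markov Q _ S.F S.z _ hQ0 (hZ1 c) hG.good, ← Ex_const (Q := Q) (D := S.F) (η := S.z) hQ0
      (C * (((r + 1 : ℤ) : ℝ) / ((R - 1 : ℤ) : ℝ)) ^ α)]
    refine Ex_mono hQ0 fun T _ => ?_
    exact (fresh_le hQ (by omega) (FK.f_good.1 S.F S.z T hG.good)
      (hZ2 c _ fun v hv => cf_out hv)).trans (h c _ _ _ (by omega) (by omega))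
  have hle : H685.Q.PQ Q S {ξ | H318.Visit S.D S.e0 S.m (hq ((b, 0) : Pt) R)ᶜ ξ} ≤
      FK.Pr Q S.F S.z (Xo true (Z true) (b, 0) (r + 1) (R - 1) ∪
        Xo false (Z false) (b, 0) (r + 1) (R - 1)) := by
    refine Pr_mono' hQ0 fun T _ hT => hZ3 (cf S.F S.z T) (fun v hv => cf_out hv) hT
  refine (hle.trans (Pr_union_le hQ0 _ _)).trans ((add_le_add (hone true) (hone false)).trans ?_)
  calc C * (((r + 1 : ℤ) : ℝ) / ((R - 1 : ℤ) : ℝ)) ^ α +
        C * (((r + 1 : ℤ) : ℝ) / ((R - 1 : ℤ) : ℝ)) ^ α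
      = 2 * C * (((r + 1 : ℤ) : ℝ) / ((R - 1 : ℤ) : ℝ)) ^ α := by ring
    _ ≤ 2 * C * (4 * ((r : ℝ) / R)) ^ α := by
        have h7 : (0 : ℝ) < ((R - 1 : ℤ) : ℝ) := by exact_mod_cast (by omega : 0 < R - 1)
        have h8 : (0 : ℝ) ≤ ((r + 1 : ℤ) : ℝ) := by exact_mod_cast (by omega : 0 ≤ r + 1)
        have h9 : ((r + 1 : ℤ) : ℝ) / ((R - 1 : ℤ) : ℝ) ≤ 4 * ((r : ℝ) / R) := by
          rw [mul_div_assoc', div_le_div_iff₀ h7 (by linarith)]
          push_cast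
          have : (4 : ℝ) ≤ R := by exact_mod_cast (by omega : 4 ≤ R)
          nlinarith
        gcongr
    _ = 2 * C * 4 ^ α * ((r : ℝ) / R) ^ α := by
        rw [Real.mul_rpow (by norm_num) hrR0]
        ring
    _ ≤ _ := mul_le_mul_of_nonneg_right (le_max_left _ _) (Real.rpow_nonneg hrR0 _)

end Vale.Agent.P167.H632Q
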