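import Vale.Agent.P167.H632.SM
import Vale.Agent.P167.H632.Q.EscQ
import Vale.Agent.P167.H685.Q.Rec4

/-!
# P167, general `q`, block Q-NSYM: the second moment `SMQ`, from `ESCQ`
-/

namespace Vale.Agent.P167.H632Q

open Relation Vale.Agent.P167 Vale.Agent.P167.FKA Vale.Agent.P167.H871
  Vale.Agent.P153 Vale.Agent.P153.Topo
open Vale.Agent.P167.H632 hiding HB E S
open Vale.Agent.P145.FB (PStep PConn)
open Vale.Agent.P167.FK (cf Good)
open Vale.Agent.P167.H318 (St TA Flat PO Lo HB J ex hit Visit st RV_path stopSet_RV RV_sub)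
open Vale.Agent.P167.H685.Q

variable {Q C α : ℝ} {S : St}

/-- The strand visits `A` before it leaves `D`. -/
def Pv (S : St) (A : Set Pt) (ω : Cfg) : Prop := hdv (st S.e0 ω (hit S.D S.e0 A ω)) ∈ A

/-- The strand visits `A`, and it has visited `A'` before. -/
def Pv2 (S : St) (A A' : Set Pt) (ω : Cfg) : Prop :=
  Pv S A ω ∧ ∃ i ≤ hit S.D S.e0 A ω, hdv (st S.e0 ω i) ∈ A'

/-- The strand leaves `X` after its first visit of `A`. -/
def Es (S : St) (A X : Set Pt) (ω : Cfg) : Prop :=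
  Visit S.D S.e0 (hit S.D S.e0 A ω) Xᶜ ω

theorem path_past (hS : S.Ok) {A : Set Pt} {ω ω' : Cfg} (h : Cs S ω) (h' : Cs S ω')
    (hR : ∀ v ∈ S.RV A ω, ω' v = ω v) :
    (∀ i ≤ hit S.D S.e0 A ω, st S.e0 ω' i = st S.e0 ω i) ∧
      hit S.D S.e0 A ω' = hit S.D S.e0 A ω := by
  have h3 := RV_path (S := S) hS.st (A := A) (ω := ω) (ω' := ω') hR
  rw [h.cf, h'.cf] at h3
  exact h3

theorem past_Pv2 (hS : S.Ok) (A A' : Set Pt) :
    PastS S (S.RV A) ({ω | Pv2 S A A' ω}.indicator 1) := by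
  intro ω ω' h h' hR
  obtain ⟨h1, h2⟩ := path_past hS h h' hR
  have h3 : Pv2 S A A' ω' ↔ Pv2 S A A' ω := by
    unfold Pv2 Pv
    rw [h2, h1 _ le_rfl]
    refine and_congr_right fun _ => exists_congr fun i => and_congr_right fun hi => ?_
    rw [h1 i hi]
  by_cases h4 : Pv2 S A A' ω
  · rw [Set.indicator_of_mem (show ω' ∈ {ω | Pv2 S A A' ω} from h3.2 h4),
      Set.indicator_of_mem (show ω ∈ {ω | Pv2 S A A' ω} from h4)]
    rfl
  · rw [Set.indicator_of_notMem (show ω' ∉ {ω | Pv2 S A A' ω} from fun h5 => h4 (h3.1 h5)),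
      Set.indicator_of_notMem (show ω ∉ {ω | Pv2 S A A' ω} from h4)]

/-- **No escape with probability at least `1 / 2`, given the past.** -/
theorem half_esc (hQ : 0 < Q) (hE : EscB Q C α) (hS : S.Ok) {b r0 R : ℤ} (h1 : 1 ≤ r0)
    (h2 : r0 ≤ R) (hG : Gq S b R) (hD : ∀ v ∈ HB b R, v ∈ S.D)
    (hn : ∀ x, b - R ≤ x → x ≤ b + R → (x, (-1 : ℤ)) ∉ S.D) (hP : PO S (HB b R))
    (hA : ∀ v ∈ HB b r0, v ∈ S.F) (hp : C * ((r0 : ℝ) / R) ^ α ≤ 1 / 2) (A' : Set Pt) :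
    PQ Q S {ω | Pv2 S (HB b r0) A' ω} ≤
      2 * PQ Q S ({ω | Pv2 S (HB b r0) A' ω} ∩ {ω | ¬ Es S (HB b r0) (HB b R) ω}) := by
  set A := HB b r0 with hAdef
  set Y : Cfg → ℝ := {ω | Pv2 S A A' ω}.indicator 1 with hY
  set E : Set Cfg := {ω | Es S A (HB b R) ω} with hEdef
  have k1 : EQ Q S (fun ω => Y ω * E.indicator 1 ω) ≤ 1 / 2 * EQ Q S Y := by
    rw [EQ_stop hQ hG.good (stopSet_RV hS.st A) (fun ω => RV_cf A ω) (past_Pv2 hS A A'),
      ← EQ_mul]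
    refine EQ_mono hQ fun ω hω => ?_
    rw [mul_comm (1 / 2 : ℝ)]
    by_cases h3 : ω ∈ {ω | Pv2 S A A' ω}
    · refine mul_le_mul_of_nonneg_left ?_ (ind_nonneg _ _)
      have h4 := esc_int (Q := Q) (ω := ω) hE hS hA h1 h2 hG hD hn hP (fun v hv => hv) (by
        have h5 : hdv (st S.e0 ω (hit S.D S.e0 A ω)) ∈ A := h3.1
        show hdv (st S.e0 (S.cf ω) (hit S.D S.e0 A (S.cf ω))) ∈ HB b r0
        rw [hω.cf]
        exact h5)
      refine (le_of_eq ?_).trans (h4.trans hp)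
      refine EQ_congr fun ξ hξ => ?_
      obtain ⟨p1, p2, p3⟩ := int_path hS.st hω hξ
      have h6 : ξ ∈ E ↔ ξ ∈ {ξ | Visit S.D S.e0 (hit S.D S.e0 A (S.cf ω)) (HB b R)ᶜ ξ} := by
        show Visit S.D S.e0 (hit S.D S.e0 A ξ) (HB b R)ᶜ ξ ↔
          Visit S.D S.e0 (hit S.D S.e0 A (S.cf ω)) (HB b R)ᶜ ξ
        rw [p3, hω.cf]
      by_cases h7 : ξ ∈ E
      · rw [Set.indicator_of_mem h7, Set.indicator_of_mem (h6.1 h7)]
      · rw [Set.indicator_of_notMem h7, Set.indicator_of_notMem fun h8 => h7 (h6.2 h8)]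
    · have h4 : Y ω = 0 := Set.indicator_of_notMem h3 _
      show Y ω * _ ≤ Y ω * _
      rw [h4, zero_mul, zero_mul]
  have k2 : EQ Q S Y = EQ Q S (fun ω => Y ω * E.indicator 1 ω) +
      PQ Q S ({ω | Pv2 S A A' ω} ∩ {ω | ¬ Es S A (HB b R) ω}) := by
    show _ = _ + EQ Q S (({ω | Pv2 S A A' ω} ∩ {ω | ¬ Es S A (HB b R) ω}).indicator 1)
    rw [← EQ_add]
    refine EQ_congr fun ω _ => ?_
    rw [ind_inter]
    have h3 : ({ω | ¬ Es S A (HB b R) ω} : Set Cfg).indicator (1 : Cfg → ℝ) ω =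
        1 - E.indicator 1 ω := ind_compl E ω
    rw [h3]
    ring
  have k3 : PQ Q S {ω | Pv2 S A A' ω} = EQ Q S Y := rfl
  rw [k3]
  linarith

/-- **The foot.** -/
theorem foot_near (hS : S.Ok) {b r0 R : ℤ} (hA : ∀ v ∈ HB b r0, v ∈ S.D) {ω : Cfg}
    (h1 : Pv S (HB b r0) ω) (h2 : ¬ Es S (HB b r0) (HB b R) ω) :
    b - R - 1 ≤ (hdv (st S.e0 ω (ex S.D S.e0 ω))).1 ∧
      (hdv (st S.e0 ω (ex S.D S.e0 ω))).1 ≤ b + R + 1 := by
  have h3 : hit S.D S.e0 (HB b r0) ω < ex S.D S.e0 ω := by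
    have h4 := H318.Bs.hit_le_ex (A := HB b r0) (ξ := ω) hS.st
    rcases lt_or_eq_of_le h4 with h5 | h5
    · exact h5
    · exfalso
      have h6 := H318.Bs.ex_spec hS.st ω
      rw [← h5] at h6
      exact h6 (hA _ h1)
  obtain ⟨m, hm⟩ : ∃ m, ex S.D S.e0 ω = m + 1 := ⟨ex S.D S.e0 ω - 1, by omega⟩
  have h4 : hdv (st S.e0 ω m) ∈ HB b R := by
    by_contra hcon
    exact h2 ⟨m, by omega, by omega, hcon⟩
  have h5 : tlv (st S.e0 ω (m + 1)) = hdv (st S.e0 ω m) := tlv_pth ω S.e0 m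
  rw [hm]
  obtain ⟨g1, g2, -, -⟩ := h4
  rw [← h5] at g1 g2
  revert g1 g2
  generalize st S.e0 ω (m + 1) = g
  rcases g with v | v
  · rcases sq_inl v with h' | h' <;> rw [h'.1, h'.2.1] <;> dsimp only <;> omega
  · rcases sq_inr v with h' | h' <;> rw [h'.1, h'.2.1] <;> dsimp only <;> omega

/-! ### The second moment of the number of visited blocks -/

theorem Pv.lt_ex (hS : S.Ok) {A : Set Pt} (hA : ∀ v ∈ A, v ∈ S.D) {ω : Cfg} (h : Pv S A ω) :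
    hit S.D S.e0 A ω < ex S.D S.e0 ω := by
  have h4 := H318.Bs.hit_le_ex (A := A) (ξ := ω) hS.st
  rcases lt_or_eq_of_le h4 with h5 | h5
  · exact h5
  · exfalso
    have h6 := H318.Bs.ex_spec hS.st ω
    rw [← h5] at h6
    exact h6 (hA _ h)

theorem pv_of {A : Set Pt} {ω : Cfg} {i : ℕ} (hi : ∀ l < i, hdv (st S.e0 ω l) ∈ S.D)
    (h : hdv (st S.e0 ω i) ∈ A) (hS : S.Ok) : Pv S A ω := by
  have h1 : hit S.D S.e0 A ω ≤ i := H318.Bs.hit_le (Or.inl h)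
  rcases lt_or_eq_of_le h1 with h2 | h2
  · rcases H318.Bs.hit_spec hS.st A ω with h3 | h3
    · exact h3
    · exact absurd (hi _ h2) h3
  · unfold Pv
    rw [h2]
    exact h

theorem Pv2.left {A A' : Set Pt} {ω : Cfg} (h : Pv2 S A A' ω) : Pv S A ω := h.1

theorem Pv2.right (hS : S.Ok) {A A' : Set Pt} (hA : ∀ v ∈ A, v ∈ S.D) {ω : Cfg}
    (h : Pv2 S A A' ω) : Pv S A' ω := by
  obtain ⟨h1, i, hi, h2⟩ := h
  have h3 := h1.lt_ex hS hA
  exact pv_of (fun l hl => H632.lt_ex (by omega)) h2 hS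

theorem pv2_or {A A' : Set Pt} {ω : Cfg} (h : Pv S A ω) (h' : Pv S A' ω) :
    Pv2 S A A' ω ∨ Pv2 S A' A ω := by
  rcases le_total (hit S.D S.e0 A ω) (hit S.D S.e0 A' ω) with h1 | h1
  · exact Or.inr ⟨h', _, h1, h⟩
  · exact Or.inl ⟨h, _, h1, h'⟩

theorem EQ_sum {ι : Type*} (J : Finset ι) (f : ι → Cfg → ℝ) :
    EQ Q S (fun ω => ∑ j ∈ J, f j ω) = ∑ j ∈ J, EQ Q S (f j) := by
  classical
  induction J using Finset.induction_on with
  | empty =>
    simp only [Finset.sum_empty]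
    have := EQ_mul (Q := Q) (S := S) 0 (fun _ => 0)
    simpa using this
  | @insert a s ha ih =>
    simp only [Finset.sum_insert ha]
    rw [EQ_add, ih]

/-- Events of which at most `M` occur at the same time. -/
theorem sum_PQ_le (hQ : 0 < Q) {ι : Type*} (J : Finset ι) (X : Set Cfg) (F : ι → Set Cfg) (M : ℕ)
    (h : ∀ ω, Cs S ω → ∀ T ⊆ J, (∀ j ∈ T, ω ∈ F j) → T.card ≤ M) :
    ∑ j ∈ J, PQ Q S (X ∩ F j) ≤ M * PQ Q S X := by
  classical
  have e1 : ∑ j ∈ J, PQ Q S (X ∩ F j) = EQ Q S (fun ω => ∑ j ∈ J, (X ∩ F j).indicator 1 ω) :=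
    (EQ_sum J _).symm
  have e2 : (M : ℝ) * PQ Q S X = EQ Q S (fun ω => M * X.indicator 1 ω) := (EQ_mul _ _).symm
  rw [e1, e2]
  refine EQ_mono hQ fun ω hω => ?_
  simp only [ind_inter]
  rw [← Finset.mul_sum, mul_comm (M : ℝ)]
  refine mul_le_mul_of_nonneg_left ?_ (ind_nonneg _ _)
  have e3 : ∑ j ∈ J, (F j).indicator (1 : Cfg → ℝ) ω = ((J.filter fun j => ω ∈ F j).card : ℝ) := by
    rw [Finset.natCast_card_filter]
    refine Finset.sum_congr rfl fun j _ => ?_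
    by_cases h1 : ω ∈ F j <;> simp [h1]
  rw [e3]
  exact_mod_cast h ω hω _ (Finset.filter_subset _ _) fun j hj => (Finset.mem_filter.1 hj).2

theorem PQ_mono' (hQ : 0 < Q) {A B : Set Cfg} (h : ∀ ω, Cs S ω → ω ∈ A → ω ∈ B) :
    PQ Q S A ≤ PQ Q S B := by
  refine EQ_mono hQ fun ω hω => ?_
  by_cases h1 : ω ∈ A
  · rw [Set.indicator_of_mem h1, Set.indicator_of_mem (h ω hω h1)]
  · rw [Set.indicator_of_notMem h1]
    exact ind_nonneg _ _

/-- **The second moment of the number of the visited blocks.** -/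
theorem vis2 (hQ : 0 < Q) (hE : EscB Q C α) (hS : S.Ok) {r0 R : ℤ} (h1 : 1 ≤ r0) (h2 : r0 ≤ R)
    (hp : C * ((r0 : ℝ) / R) ^ α ≤ 1 / 2) (J : Finset ℤ) (b : ℤ → ℤ)
    (hG : ∀ j ∈ J, Gq S (b j) R) (hF : ∀ j ∈ J, ∀ v ∈ HB (b j) R, v ∈ S.F)
    (hn : ∀ j ∈ J, ∀ x, b j - R ≤ x → x ≤ b j + R → (x, (-1 : ℤ)) ∉ S.D) (M : ℕ)
    (hM : ∀ x : ℤ, ∀ T ⊆ J, (∀ j ∈ T, b j - R - 1 ≤ x ∧ x ≤ b j + R + 1) → T.card ≤ M) :
    ∑ i ∈ J, ∑ j ∈ J, PQ Q S ({ω | Pv S (HB (b i) r0) ω} ∩ {ω | Pv S (HB (b j) r0) ω}) ≤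
      8 * (M : ℝ) ^ 2 := by
  classical
  set P : ℤ → Set Cfg := fun j => {ω | Pv S (HB (b j) r0) ω} with hP
  set F : ℤ → Set Cfg := fun j => {ω | Pv S (HB (b j) r0) ω ∧ ¬ Es S (HB (b j) r0) (HB (b j) R) ω}
    with hFd
  set A : ℤ → ℤ → Set Cfg := fun i j => {ω | Pv2 S (HB (b j) r0) (HB (b i) r0) ω} with hA
  have hsub : ∀ j ∈ J, ∀ v ∈ HB (b j) r0, v ∈ S.F := fun j hj v hv => hF j hj v (by
    obtain ⟨g1, g2, g3, g4⟩ := hv
    exact ⟨by omega, by omega, g3, by omega⟩)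
  have foot : ∀ X : Set Cfg, ∑ j ∈ J, PQ Q S (X ∩ F j) ≤ M * PQ Q S X := by
    intro X
    refine sum_PQ_le hQ J X F M fun ω _ T hT hTω => ?_
    refine hM (hdv (st S.e0 ω (ex S.D S.e0 ω))).1 T hT fun j hj => ?_
    exact foot_near hS (fun v hv => hS.sub (hsub j (hT hj) v hv)) (hTω j hj).1 (hTω j hj).2
  have half : ∀ j ∈ J, ∀ A' : Set Pt, PQ Q S {ω | Pv2 S (HB (b j) r0) A' ω} ≤
      2 * PQ Q S ({ω | Pv2 S (HB (b j) r0) A' ω} ∩
        {ω | ¬ Es S (HB (b j) r0) (HB (b j) R) ω}) := fun j hj A' =>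
    half_esc hQ hE hS h1 h2 (hG j hj) (fun v hv => hS.sub (hF j hj v hv)) (hn j hj)
      (fun v hv => Or.inl (hF j hj v hv)) (hsub j hj) hp A'
  have hA1 : ∀ i ∈ J, ∀ j ∈ J, PQ Q S (A i j) ≤ 2 * PQ Q S (P i ∩ F j) := by
    intro i _ j hj
    refine (half j hj (HB (b i) r0)).trans (mul_le_mul_of_nonneg_left (PQ_mono' hQ ?_)
      (by norm_num))
    rintro ω - ⟨g1, g2⟩
    exact ⟨g1.right hS (fun v hv => hS.sub (hsub j hj v hv)), g1.left, g2⟩
  have hP1 : ∀ i ∈ J, PQ Q S (P i) ≤ 2 * PQ Q S (Set.univ ∩ F i) := by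
    intro i hi
    have k1 : PQ Q S (P i) ≤ PQ Q S {ω | Pv2 S (HB (b i) r0) (HB (b i) r0) ω} :=
      PQ_mono' hQ fun ω _ hω => ⟨hω, _, le_rfl, hω⟩
    refine (k1.trans (half i hi (HB (b i) r0))).trans (mul_le_mul_of_nonneg_left (PQ_mono' hQ ?_)
      (by norm_num))
    rintro ω - ⟨g1, g2⟩
    exact ⟨trivial, g1.left, g2⟩
  have huniv : PQ Q S Set.univ ≤ 1 := Pr_le_one hQ _
  have hM0 : (0 : ℝ) ≤ M := by positivity
  have hAs : ∑ i ∈ J, ∑ j ∈ J, PQ Q S (A i j) ≤ 4 * (M : ℝ) ^ 2 := by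
    calc ∑ i ∈ J, ∑ j ∈ J, PQ Q S (A i j)
        ≤ ∑ i ∈ J, ∑ j ∈ J, 2 * PQ Q S (P i ∩ F j) :=
          Finset.sum_le_sum fun i hi => Finset.sum_le_sum fun j hj => hA1 i hi j hj
      _ = ∑ i ∈ J, 2 * ∑ j ∈ J, PQ Q S (P i ∩ F j) := by simp only [Finset.mul_sum]
      _ ≤ ∑ i ∈ J, 2 * (M * PQ Q S (P i)) := by
          refine Finset.sum_le_sum fun i _ => ?_
          gcongr
          exact foot (P i)
      _ ≤ ∑ i ∈ J, 2 * (M * (2 * PQ Q S (Set.univ ∩ F i))) := by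
          refine Finset.sum_le_sum fun i hi => ?_
          gcongr
          exact hP1 i hi
      _ = 4 * M * ∑ i ∈ J, PQ Q S (Set.univ ∩ F i) := by
          rw [Finset.mul_sum]
          exact Finset.sum_congr rfl fun _ _ => by ring
      _ ≤ 4 * M * (M * PQ Q S Set.univ) := by
          gcongr
          exact foot _
      _ ≤ 4 * M * (M * 1) := by gcongr
      _ = _ := by ring
  calc ∑ i ∈ J, ∑ j ∈ J, PQ Q S (P i ∩ P j)
      ≤ ∑ i ∈ J, ∑ j ∈ J, (PQ Q S (A i j) + PQ Q S (A j i)) := by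
        refine Finset.sum_le_sum fun i _ => Finset.sum_le_sum fun j _ => ?_
        refine (PQ_mono' (B := A i j ∪ A j i) hQ ?_).trans (Pr_union_le hQ _ _)
        rintro ω - ⟨g1, g2⟩
        have g1' : Pv S (HB (b i) r0) ω := g1
        have g2' : Pv S (HB (b j) r0) ω := g2
        exact (pv2_or g2' g1').imp id id
    _ = ∑ i ∈ J, ∑ j ∈ J, PQ Q S (A i j) + ∑ i ∈ J, ∑ j ∈ J, PQ Q S (A j i) := by
        simp only [Finset.sum_add_distrib]
    _ = 2 * ∑ i ∈ J, ∑ j ∈ J, PQ Q S (A i j) := by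
        rw [Finset.sum_comm (f := fun i j => PQ Q S (A j i))]
        ring
    _ ≤ _ := by linarith

/-! ### The second moment of the observable -/

theorem exists_K (C : ℝ) {α : ℝ} (hα : 0 < α) :
    ∃ K : ℤ, 1 ≤ K ∧ ∀ k : ℤ, 1 ≤ k → C * ((k : ℝ) / ((K * k : ℤ) : ℝ)) ^ α ≤ 1 / 2 := by
  have h1 := (tendsto_rpow_atTop hα).eventually_ge_atTop (2 * C)
  obtain ⟨x0, hx0⟩ := Filter.eventually_atTop.1 h1
  refine ⟨max 1 ⌈x0⌉, le_max_left _ _, fun k hk => ?_⟩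
  set K := max 1 ⌈x0⌉ with hK
  have hK1 : (1 : ℝ) ≤ K := by exact_mod_cast le_max_left _ _
  have hK2 : x0 ≤ K := (Int.le_ceil x0).trans (by exact_mod_cast le_max_right _ _)
  have h2 := hx0 K hK2
  have hk' : (0 : ℝ) < k := by exact_mod_cast (by omega : 0 < k)
  have e1 : (k : ℝ) / ((K * k : ℤ) : ℝ) = ((K : ℝ))⁻¹ := by
    push_cast
    field_simp
  rw [e1, Real.inv_rpow (by linarith)]
  rw [← div_eq_mul_inv, div_le_iff₀ (by positivity)]
  linarith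

/-- **SM** for general `q`. -/
theorem smq (hQ : 1 ≤ Q) (hE : ESCQ Q) : SMQ Q := by
  classical
  have hQ0 : 0 < Q := by linarith
  obtain ⟨C, α, hC, hα, hE⟩ := hE
  obtain ⟨K, hK, hKp⟩ := exists_K C hα
  refine ⟨32 * ((2 * K + 5 : ℤ) : ℝ) ^ 2, K + 150, ?_, by omega, ?_⟩
  · have : (0 : ℝ) < ((2 * K + 5 : ℤ) : ℝ) := by exact_mod_cast (by omega : 0 < 2 * K + 5)
    positivity
  intro S u w y k ψ hk hky hTA hG hψ hs
  have hk' : (1 : ℤ) ≤ k := by exact_mod_cast hk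
  have hKk : (k : ℤ) ≤ K * k := by nlinarith
  have e0 : (K + 150) * (k : ℤ) = K * k + 150 * k := by ring
  rw [e0] at hky
  simp only [e0] at hs
  set w' : ℤ := w - K * k with hw'
  set J := Bl u w' k with hJ
  have hfl : H318.Flat S.D u w' y := by
    refine ⟨fun v hv => hTA.flat.mem v ?_, fun x g1 g2 => hTA.flat.not x (by omega) (by omega)⟩
    obtain ⟨g1, g2, g3, g4⟩ := hv
    exact ⟨by omega, by omega, g3, g4⟩
  have hJb : ∀ j ∈ J, u - w + K * k ≤ k * j ∧ k * j ≤ u + w - K * k := by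
    intro j hj
    have := mem_Bl hk hj
    omega
  have h2 : ∑ i ∈ J, ∑ j ∈ J, PQ Q S ({ω | Pv S (HB (k * i) k) ω} ∩ {ω | Pv S (HB (k * j) k) ω}) ≤
      8 * (((2 * K + 5).toNat : ℕ) : ℝ) ^ 2 := by
    refine vis2 hQ0 hE hTA.toOk hk' hKk (hKp k hk') J (fun j => k * j) (fun j hj => ?_)
      (fun j hj v hv => ?_) (fun j hj x g1 g2 => ?_) _ fun x T _ hT => ?_
    · have := hJb j hj
      exact hG.mono (by omega) (by omega)
    · have := hJb j hj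
      obtain ⟨g1, g2, g3, g4⟩ := hv
      exact hTA.fresh v ⟨by omega, by omega, g3, by omega⟩
    · have := hJb j hj
      exact hTA.flat.not x (by omega) (by omega)
    · have h4 : T ⊆ Finset.Icc (x / (k : ℤ) - (K + 2)) (x / (k : ℤ) + (K + 2)) := by
        intro j hj
        have h5 := hT j hj
        have h6 := ediv_bd (x := x) (k := k) hk'
        rw [Finset.mem_Icc]
        constructor
        · by_contra hcon
          push Not at hcon
          have : (k : ℤ) * (j + (K + 3)) ≤ k * (x / (k : ℤ)) := by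
            refine mul_le_mul_of_nonneg_left (by omega) (by omega)
          have e1 : (k : ℤ) * (j + (K + 3)) = k * j + K * k + 3 * k := by ring
          omega
        · by_contra hcon
          push Not at hcon
          have : (k : ℤ) * (x / (k : ℤ) + (K + 3)) ≤ k * j := by
            refine mul_le_mul_of_nonneg_left (by omega) (by omega)
          have e1 : (k : ℤ) * (x / (k : ℤ) + (K + 3)) = k * (x / (k : ℤ)) + K * k + 3 * k := by ring
          omega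
      refine (Finset.card_le_card h4).trans ?_
      rw [Int.card_Icc]
      omega
  -- the observable
  set N : Cfg → ℕ := fun ω => (J.filter fun j => Pv S (HB (k * j) k) ω).card with hN
  have h3 : ∀ ω, H318.J S.D S.e0 ψ k ω ^ 2 ≤ 4 * (k : ℝ) ^ 2 * (N ω : ℝ) ^ 2 := by
    intro ω
    have h5 := J_le (ex_of_co hTA.co) hfl hTA.st ω hk (by omega) hψ (fun x hx => by
      have := hs x hx
      omega)
    have h6 : ((((Bl u w' k).filter fun j => H632.Vis (S.D : Set Pt) (k * j, 0) (k - 1) ω S.e0).card :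
        ℕ) : ℝ) ≤ (N ω : ℝ) := by
      have : ((Bl u w' k).filter fun j => H632.Vis (S.D : Set Pt) (k * j, 0) (k - 1) ω S.e0).card ≤
          N ω := by
        refine Finset.card_le_card fun j hj => ?_
        rw [Finset.mem_filter] at hj ⊢
        refine ⟨hj.1, ?_⟩
        obtain ⟨i, hi1, hi2⟩ := hj.2
        refine pv_of (i := i) (fun l hl => hi1 l hl) ?_ hTA.toOk
        rw [mem_hq] at hi2
        show hdv (pth ω S.e0 i) ∈ HB (k * j) k
        exact ⟨by omega, by omega, by omega, by omega⟩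
      exact_mod_cast this
    have h7 : |H318.J S.D S.e0 ψ k ω| ≤ 2 * k * (N ω : ℝ) :=
      h5.trans (mul_le_mul_of_nonneg_left h6 (by positivity))
    have h8 : H318.J S.D S.e0 ψ k ω ^ 2 ≤ (2 * k * (N ω : ℝ)) ^ 2 := by
      rw [← sq_abs]
      exact pow_le_pow_left₀ (abs_nonneg _) h7 2
    calc _ ≤ _ := h8
      _ = _ := by ring
  have h4 : ∀ ω, (N ω : ℝ) ^ 2 = ∑ i ∈ J, ∑ j ∈ J,
      ({ω | Pv S (HB (k * i) k) ω} ∩ {ω | Pv S (HB (k * j) k) ω}).indicator (1 : Cfg → ℝ) ω := by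
    intro ω
    have e1 : (N ω : ℝ) = ∑ j ∈ J, ({ω | Pv S (HB (k * j) k) ω}).indicator (1 : Cfg → ℝ) ω := by
      simp only [hN]
      rw [Finset.natCast_card_filter]
      refine Finset.sum_congr rfl fun j _ => ?_
      by_cases h6 : Pv S (HB (k * j) k) ω
      · rw [if_pos h6, Set.indicator_of_mem (show ω ∈ {ω | Pv S (HB (k * j) k) ω} from h6)]
        rfl
      · rw [if_neg h6, Set.indicator_of_notMem (show ω ∉ {ω | Pv S (HB (k * j) k) ω} from h6)]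
    rw [sq, e1, Finset.sum_mul_sum]
    exact Finset.sum_congr rfl fun i _ => Finset.sum_congr rfl fun j _ => (ind_inter _ _ _).symm
  have h5 : EQ Q S (fun ω => (N ω : ℝ) ^ 2) = ∑ i ∈ J, ∑ j ∈ J,
      PQ Q S ({ω | Pv S (HB (k * i) k) ω} ∩ {ω | Pv S (HB (k * j) k) ω}) := by
    rw [EQ_congr fun ω _ => h4 ω, EQ_sum]
    exact Finset.sum_congr rfl fun i _ => EQ_sum _ _
  have hcast : (((2 * K + 5).toNat : ℕ) : ℝ) = ((2 * K + 5 : ℤ) : ℝ) := by
    have : (((2 * K + 5).toNat : ℕ) : ℤ) = 2 * K + 5 := Int.toNat_of_nonneg (by omega)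
    exact_mod_cast congrArg (Int.cast (R := ℝ)) this
  calc EQ Q S (fun ξ => H318.J S.D S.e0 ψ k ξ ^ 2)
      ≤ EQ Q S (fun ω => 4 * (k : ℝ) ^ 2 * (N ω : ℝ) ^ 2) := EQ_mono hQ0 fun ω _ => h3 ω
    _ = 4 * (k : ℝ) ^ 2 * EQ Q S (fun ω => (N ω : ℝ) ^ 2) := EQ_mul _ _
    _ ≤ 4 * (k : ℝ) ^ 2 * (8 * (((2 * K + 5).toNat : ℕ) : ℝ) ^ 2) := by
        rw [h5]
        gcongr
    _ = _ := by
        rw [hcast]
        ring

end Vale.Agent.P167.H632Q
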